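import Crest.Agent.N218.Tr.Top
import Crest.Agent.N218.Fo.Rp

/-!
# Row 218, transfer (helper37): subgroups of cyclic groups
-/

set_option autoImplicit false
set_option linter.unusedVariables false
set_option linter.unusedSectionVars false

open Crest.Agent.N218.Fo Complex

noncomputable section

namespace Crest.Agent.N218.Tr

variable {q h c : ℕ} [NeZero q] [NeZero h]

/-- the inclusion `C_h → C_q`, `q = h c` -/
def ph (e : q = h * c) : Multiplicative (ZMod h) →* Multiplicative (ZMod q) :=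
  AddMonoidHom.toMultiplicative (ZMod.lift h ⟨zmultiplesHom (ZMod q) (c : ZMod q), by
    simp only [zmultiplesHom_apply, zsmul_eq_mul, Int.cast_natCast]
    rw [← Nat.cast_mul, ← e, ZMod.natCast_self]⟩)

theorem ph_nat (e : q = h * c) (b : ℕ) :
    ph e (Multiplicative.ofAdd (b : ZMod h)) = Multiplicative.ofAdd ((b : ZMod q) * c) := by
  change Multiplicative.ofAdd (ZMod.lift h _ (b : ZMod h)) = _
  rw [← Int.cast_natCast (R := ZMod h), ZMod.lift_coe]; simp

theorem ph_val (e : q = h * c) (k : Multiplicative (ZMod h)) :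
    (ph e k).toAdd = (k.toAdd.val : ZMod q) * c := by
  conv_lhs => rw [← ofAdd_toAdd k, ← ZMod.natCast_zmod_val k.toAdd, ph_nat]
  rfl

theorem ph_cont (e : q = h * c) : Continuous (ph e) := continuous_of_discreteTopology

theorem mem_ph (e : q = h * c) (g : Multiplicative (ZMod q)) :
    g ∈ (ph e).range ↔ ∃ b : ℕ, g.toAdd = b * c :=
  ⟨fun ⟨k, hk⟩ => ⟨_, hk ▸ ph_val e k⟩, fun ⟨b, hb⟩ => ⟨_, (ph_nat e b).trans (by rw [← hb]; rfl)⟩⟩

theorem inc_nat (b : ℕ) :
    (inc q (Multiplicative.ofAdd (b : ZMod q)) : ℂ) = exp (2 * Real.pi * I * b / q) :=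
  ZMod.toCircle_natCast b

/-- compatibility with the inclusions in the circle -/
theorem inc_ph (e : q = h * c) : inc h = (inc q).comp (ph e) := by
  refine MonoidHom.ext fun k => Circle.ext ?_
  rw [← ofAdd_toAdd k, ← ZMod.natCast_zmod_val k.toAdd, MonoidHom.comp_apply, ph_nat,
    ← Nat.cast_mul, inc_nat, inc_nat]
  have : (c : ℂ) ≠ 0 := Nat.cast_ne_zero.2 fun k => NeZero.ne q (by rw [e, k, mul_zero])
  have : (h : ℂ) ≠ 0 := Nat.cast_ne_zero.2 (NeZero.ne h)
  congr 1; rw [e]; push_cast; field_simp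

theorem ph_inj (e : q = h * c) : Function.Injective (ph e) := fun a b k =>
  inc_inj h (by rw [inc_ph e, MonoidHom.comp_apply, MonoidHom.comp_apply, k])

theorem inc_pow (k : Multiplicative (ZMod h)) : inc h k ^ h = 1 := by
  rw [← map_pow, ← ofAdd_toAdd k, ← ofAdd_nsmul, nsmul_eq_mul, ZMod.natCast_self, zero_mul,
    ofAdd_zero, map_one]

/-- coset data: representatives `σ ^ i`, characters `L ^ (h j)` -/
def cyc (e : q = h * c) : Cs (ph e) (Fin c) where
  t i := Multiplicative.ofAdd ((i : ℕ) : ZMod q)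
  ex g := by
    have c0 : 0 < c := Nat.pos_of_ne_zero fun k => NeZero.ne q (by rw [e, k, mul_zero])
    refine ⟨⟨g.toAdd.val % c, Nat.mod_lt _ c0⟩, Multiplicative.ofAdd ((g.toAdd.val / c : ℕ) : ZMod h),
      ?_⟩
    rw [ph_nat, ← ofAdd_add, ← Nat.cast_mul, ← Nat.cast_add, Nat.div_add_mod',
      ZMod.natCast_zmod_val, ofAdd_toAdd]
  un i j k H := by
    have H' : ((i : ℕ) : ZMod q) = (ph e k).toAdd + ((j : ℕ) : ZMod q) := congrArg (·.toAdd) H
    rw [ph_val, ← Nat.cast_mul, ← Nat.cast_add, ZMod.natCast_eq_natCast_iff] at H'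
    have := (H'.of_dvd ⟨h, e.trans (mul_comm _ _)⟩ : _ ≡ _ [MOD c])
    rw [Nat.ModEq, Nat.mul_add_mod_self_right, Nat.mod_eq_of_lt i.2, Nat.mod_eq_of_lt j.2] at this
    exact Fin.ext this
  χ j := (pw (h * j)).comp (inc q)
  tr j k := by
    change (inc q).comp (ph e) k ^ (h * j) = 1
    rw [← inc_ph, pow_mul, inc_pow, one_pow]
  inj i j H := by
    have H1 : inc q (Multiplicative.ofAdd 1) ^ (h * i) = inc q (Multiplicative.ofAdd 1) ^ (h * j) :=
      DFunLike.congr_fun H (Multiplicative.ofAdd 1)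
    rw [← map_pow (inc q), ← map_pow (inc q), ← ofAdd_nsmul, ← ofAdd_nsmul, nsmul_one, nsmul_one] at H1
    have H2 := (ZMod.natCast_eq_natCast_iff _ _ _).1 (Multiplicative.ofAdd.injective (inc_inj q H1))
    rw [e] at H2
    have := Nat.ModEq.mul_left_cancel' (NeZero.ne h) H2
    rw [Nat.ModEq, Nat.mod_eq_of_lt i.2, Nat.mod_eq_of_lt j.2] at this
    exact Fin.ext this

theorem cyc_χ (e : q = h * c) (j : Fin c) : (cyc e).χ j = (pw (h * j)).comp (inc q) := rfl

end Crest.Agent.N218.Tr
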