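import Crest.Agent.R204.KDefs_357

/-!
# Row 218, transfer (helper37), algebra: restriction of scalars along a framed extension
-/

set_option autoImplicit false
set_option linter.unusedVariables false
set_option linter.unusedSectionVars false
set_option linter.unusedSimpArgs false

open Crest.Agent.R204.K357 Matrix
open scoped Kronecker

noncomputable section

namespace Crest.Agent.N218.Tr

/-- a ring extension with a conditional expectation and a finite frame -/
structure Fr (A B α : Type) [CommRing A] [CommRing B] [Fintype α] where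
  ι : A →+* B
  E : B →+ A
  u : α → B
  v : α → B
  lin : ∀ a b, E (ι a * b) = a * E b
  fr : ∀ b, ∑ a, ι (E (u a * b)) * v a = b

namespace Fr
variable {A B α : Type} [CommRing A] [CommRing B] [Fintype α] (D : Fr A B α)
variable {I J K : Type} [Fintype I] [Fintype J] [Fintype K]

theorem key (b b' : B) : ∑ a, D.E (b * D.v a) * D.E (D.u a * b') = D.E (b * b') := by
  conv_rhs => rw [← D.fr b', Finset.mul_sum, map_sum]
  refine Finset.sum_congr rfl fun a _ => ?_
  rw [mul_comm, ← D.lin]; congr 1; ring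

/-- block matrix -/
def R (p : Matrix I J B) : Matrix (I × α) (J × α) A :=
  of fun x y => D.E (D.u x.2 * p x.1 y.1 * D.v y.2)
/-- block column -/
def C (p : Matrix I J B) : Matrix (I × α) J A := of fun x j => D.E (D.u x.2 * p x.1 j)
/-- block row -/
def W (p : Matrix I J B) : Matrix I (J × α) A := of fun i y => D.E (p i y.1 * D.v y.2)

theorem R_mul (p : Matrix I J B) (q : Matrix J K B) : D.R p * D.R q = D.R (p * q) := by
  ext x y
  simp only [R, mul_apply, of_apply, Fintype.sum_prod_type, Finset.mul_sum, Finset.sum_mul, map_sum]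
  refine Finset.sum_congr rfl fun j _ => ?_
  simp only [mul_assoc (D.u _) (q _ _), D.key]; congr 1; ring

theorem R_C (p : Matrix I J B) (q : Matrix J K B) : D.R p * D.C q = D.C (p * q) := by
  ext x y
  simp only [R, C, mul_apply, of_apply, Fintype.sum_prod_type, Finset.mul_sum, map_sum]
  refine Finset.sum_congr rfl fun j _ => ?_
  simp only [D.key]; congr 1; ring

theorem W_R (p : Matrix I J B) (q : Matrix J K B) : D.W p * D.R q = D.W (p * q) := by
  ext x y
  simp only [R, W, mul_apply, of_apply, Fintype.sum_prod_type, Finset.sum_mul, map_sum]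
  refine Finset.sum_congr rfl fun j _ => ?_
  simp only [mul_assoc (D.u _) (q _ _), D.key]; congr 1; ring

theorem W_C (p : Matrix I J B) (q : Matrix J K B) : D.W p * D.C q = (p * q).map D.E := by
  ext x y
  simp only [C, W, mul_apply, of_apply, Fintype.sum_prod_type, map_apply, map_sum, D.key]

theorem C_mul (p : Matrix I J B) (q : Matrix J K A) : D.C p * q = D.C (p * q.map D.ι) := by
  ext x y
  simp only [C, mul_apply, of_apply, map_apply, Finset.mul_sum, map_sum]
  refine Finset.sum_congr rfl fun j _ => ?_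
  rw [mul_comm, ← D.lin]; congr 1; ring

theorem mul_W (q : Matrix I J A) (p : Matrix J K B) : q * D.W p = D.W (q.map D.ι * p) := by
  ext x y
  simp only [W, mul_apply, of_apply, map_apply, Finset.sum_mul, map_sum]
  refine Finset.sum_congr rfl fun j _ => ?_
  rw [← D.lin]; congr 1; ring

theorem R_add (p q : Matrix I J B) : D.R (p + q) = D.R p + D.R q := by
  ext x y; simp [R, mul_add, add_mul]

theorem R_idem {p : Matrix I I B} (h : p * p = p) : D.R p * D.R p = D.R p := by rw [R_mul, h]

theorem R_mvn {p : Matrix I I B} {q : Matrix J J B} (h : MvN p q) : MvN (D.R p) (D.R q) := by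
  obtain ⟨x, y, h1, h2⟩ := h
  exact ⟨D.R x, D.R y, by rw [R_mul, h1], by rw [R_mul, h2]⟩

/-- the transfer on classes -/
def tV (x : V B) : K0 A :=
  Quotient.liftOn x (fun e => K0.cls (D.R e.e)) fun a b h =>
    K0.cls_eq (D.R_idem a.idem) (D.R_idem b.idem) (D.R_mvn h)

theorem tV_cl {p : Matrix I I B} (h : p * p = p) : D.tV (cl p) = K0.cls (D.R p) := by
  obtain ⟨n, e, he, h'⟩ := V.exists_rep (cl p)
  rw [← h', show cl e = V.mk ⟨n, e, he⟩ from cl_mk ⟨n, e, he⟩]
  exact K0.cls_eq (D.R_idem he) (D.R_idem h) (D.R_mvn ((cl_eq_iff he h).1 h'))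

theorem cls_R_sum {p : Matrix I I B} {q : Matrix J J B} (hp : p * p = p) (hq : q * q = q) :
    K0.cls (D.R (fromBlocks p 0 0 q)) = K0.cls (D.R p) + K0.cls (D.R q) := by
  rw [← K0.cls_sum (D.R_idem hp) (D.R_idem hq)]
  refine K0.cls_of_equiv (D.R_idem (idem_sum hp hq)) (Equiv.sumProdDistrib I J α) ?_
  rintro ⟨i | i, a⟩ ⟨j | j, b⟩ <;> simp [R]

/-- **the transfer** -/
def tau : K0 B →+ K0 A := Groth.lift
  { toFun := D.tV
    map_zero' := by
      rw [cl_zero_def, D.tV_cl (by simp), ← K0.cls_zero (I := Empty × α)]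
      congr 1; ext ⟨i, _⟩; exact i.elim
    map_add' := fun x y => by
      induction x using V.ind with | _ n e he =>
      induction y using V.ind with | _ m f hf =>
      rw [← cl_sum he hf, D.tV_cl (idem_sum he hf), D.tV_cl he, D.tV_cl hf, D.cls_R_sum he hf] }

theorem tau_cls {p : Matrix I I B} (h : p * p = p) : D.tau (K0.cls p) = K0.cls (D.R p) :=
  (Groth.lift_ofAdd _ _).trans (D.tV_cl h)

/-- the Gram projection -/
def G : Matrix α α A := of fun a b => D.E (D.u a * D.v b)

theorem G_idem : D.G * D.G = D.G := by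
  ext a b; simp only [G, mul_apply, of_apply, D.key]

/-- **projection formula** -/
theorem tau_map (x : K0 A) : D.tau (K0.map D.ι x) = x * K0.cls D.G := by
  have k : ∀ (n : ℕ) (e : Matrix (Fin n) (Fin n) A), e * e = e →
      D.tau (K0.map D.ι (K0.cls e)) = K0.cls e * K0.cls D.G := fun n e he => by
    rw [K0.map_cls _ he, D.tau_cls (idem_map _ he), ← K0.cls_kron he D.G_idem]
    congr 1; ext x y
    simp only [R, G, of_apply, map_apply, kroneckerMap_apply]
    rw [← D.lin]; congr 1; ring
  induction x using K0.ind with | _ n m e f he hf =>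
  rw [map_sub, map_sub, k n e he, k m f hf, sub_mul]

/-- **support lemma** (rotation of the distinguished sheet) -/
theorem swap {p : Matrix I I B} {P Q : Matrix I I A} (hp : p * p = p) (hP : P * P = P)
    (hQ : Q * Q = Q) (σ σ' κ : B) (c : A) (h1 : ∀ b, σ * D.ι (D.E (σ' * b)) = (1 - κ * κ) * b)
    (h2 : D.E (σ' * σ) + c * c = 1) (h3 : σ * D.ι c = σ * κ) (h3' : σ' * D.ι c = σ' * κ)
    (h4 : κ • p = κ • Q.map D.ι) (h5 : σ' • p = σ' • P.map D.ι) (h6 : c • P = c • Q) :
    D.tau (K0.cls p) + K0.cls Q = D.tau (K0.cls (Q.map D.ι)) + K0.cls P := by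
  classical
  have hQ' := idem_map D.ι hQ
  rw [D.tau_cls hp, D.tau_cls hQ', ← K0.cls_sum (D.R_idem hp) hQ, ← K0.cls_sum (D.R_idem hQ') hP]
  have e1 : D.C (σ • (1 : Matrix I I B)) * D.W (σ' • (1 : Matrix I I B)) =
      D.R ((1 - κ * κ) • (1 : Matrix I I B)) := by
    ext x y
    simp only [C, W, R, mul_apply, of_apply, Matrix.smul_apply, one_apply, smul_eq_mul, mul_ite,
      mul_one,
      mul_zero, ite_mul, zero_mul, apply_ite D.E, map_zero, Finset.sum_ite_eq', Finset.mem_univ,
      if_true]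
    split_ifs
    · rw [mul_comm, ← D.lin, mul_assoc (D.u x.2) (1 - κ * κ), ← h1]; congr 1; ring
    · rfl
  have e2 : D.R (κ • (1 : Matrix I I B)) * D.R (κ • (1 : Matrix I I B)) +
      D.C (σ • (1 : Matrix I I B)) * D.W (σ' • (1 : Matrix I I B)) = D.R 1 := by
    rw [e1, R_mul, ← R_add]; congr 1
    rw [smul_mul_smul_comm, mul_one, ← add_smul]; simp
  have m1 : (c • (1 : Matrix I I A)).map D.ι = D.ι c • (1 : Matrix I I B) := by
    ext i j; by_cases h : i = j <;> simp [one_apply, h]
  have e3 : D.R (κ • (1 : Matrix I I B)) * D.C (σ • (1 : Matrix I I B)) =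
      D.C (σ • (1 : Matrix I I B)) * (c • (1 : Matrix I I A)) := by
    rw [R_C, C_mul, m1, smul_mul_smul_comm, smul_mul_smul_comm, h3, mul_comm κ]
  have e4 : D.W (σ' • (1 : Matrix I I B)) * D.R (κ • (1 : Matrix I I B)) =
      (c • (1 : Matrix I I A)) * D.W (σ' • (1 : Matrix I I B)) := by
    rw [W_R, mul_W, m1, smul_mul_smul_comm, smul_mul_smul_comm, mul_comm (D.ι c), h3']
  have e5 : D.W (σ' • (1 : Matrix I I B)) * D.C (σ • (1 : Matrix I I B)) +
      (c • (1 : Matrix I I A)) * (c • (1 : Matrix I I A)) = 1 := by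
    rw [W_C, smul_mul_smul_comm, smul_mul_smul_comm, mul_one, mul_one]
    ext i j
    by_cases h : i = j <;> simp [one_apply, h, h2]
  set r := D.R (κ • (1 : Matrix I I B))
  set s := D.C (σ • (1 : Matrix I I B))
  set w := D.W (σ' • (1 : Matrix I I B))
  set c' := c • (1 : Matrix I I A)
  have hU : fromBlocks r (-s) w c' * fromBlocks (D.R p) 0 0 Q =
      fromBlocks (D.R (Q.map D.ι)) 0 0 P * fromBlocks r (-s) w c' := by
    simp only [fromBlocks_multiply, Matrix.mul_zero, Matrix.zero_mul, add_zero, zero_add,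
      Matrix.neg_mul, Matrix.mul_neg, r, s, w, c', R_mul, R_C, W_R, C_mul, mul_W, smul_mul,
      Matrix.mul_smul, Matrix.one_mul, Matrix.mul_one, h4, h5, h6, smul_zero, neg_zero]
  have a1 : fromBlocks r s (-w) c' * fromBlocks r (-s) w c' = fromBlocks (D.R 1) 0 0 1 := by
    simp only [fromBlocks_multiply, Matrix.neg_mul, Matrix.mul_neg, neg_neg, e2, e3, e4, e5,
      neg_add_cancel]
  have a2 : fromBlocks r (-s) w c' * fromBlocks r s (-w) c' = fromBlocks (D.R 1) 0 0 1 := by
    simp only [fromBlocks_multiply, Matrix.neg_mul, Matrix.mul_neg, neg_neg, e2, e3, e4, e5,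
      add_neg_cancel]
  have he := idem_sum (D.R_idem hp) hQ
  refine K0.cls_eq he (idem_sum (D.R_idem hQ') hP)
    ⟨fromBlocks (D.R p) 0 0 Q * fromBlocks r s (-w) c',
      fromBlocks r (-s) w c' * fromBlocks (D.R p) 0 0 Q, ?_, ?_⟩
  · rw [Matrix.mul_assoc, ← Matrix.mul_assoc (fromBlocks r s (-w) c'), a1, ← Matrix.mul_assoc]
    simp [fromBlocks_multiply, R_mul, hp, hQ]
  · rw [Matrix.mul_assoc, ← Matrix.mul_assoc (fromBlocks (D.R p) 0 0 Q), he, ← Matrix.mul_assoc,
      hU, Matrix.mul_assoc, a2]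
    simp [fromBlocks_multiply, R_mul]

end Fr
end Crest.Agent.N218.Tr
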