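import Crest.Agent.N218.Tr.Top
import Crest.Agent.N218.K.Col

/-!
# Row 218, transfer (helper37): the transfer axiom for fibrewise problems
-/

set_option autoImplicit false
set_option linter.unusedVariables false
set_option linter.unusedSectionVars false
set_option linter.unusedSimpArgs false

open Crest.Agent.R204.K357 Matrix Crest.Agent.N218.K Set Topology OnePoint
open scoped ComplexConjugate

noncomputable section

namespace Crest.Agent.N218.Tr

variable {Γ Γ' : Type} [Group Γ] [TopologicalSpace Γ] [Group Γ'] [TopologicalSpace Γ']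
  [CompactSpace Γ] [CompactSpace Γ'] {φ : Γ' →* Γ} {hφ : Continuous φ}
  {Y : GS Γ} {M : LS Γ} {W : Rep Γ}

/-- `P` is induced from the problem `P'` for the subgroup: the zeros of `P` lie in the disjoint
translates of `P'.O` -/
structure Ind (P : FP Y M W) (P' : FP (Y.res φ hφ) (M.res φ hφ) (W.res φ hφ)) : Prop where
  op : IsOpen (P'.O : Set (Y.Z × M.Z))
  inv : ∀ k, ∀ x : Y.Z × M.Z, x ∈ P'.O → (Y.act (φ k) x.1, M.act (φ k) x.2) ∈ P'.O
  sub : ∀ x : Y.Z × M.Z, x ∈ P'.O → x ∈ P.O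
  eq : ∀ x : Y.Z × M.Z, x ∈ P'.O → P'.f x = P.f x
  dis : ∀ g, ∀ x : Y.Z × M.Z, x ∈ P'.O → (Y.act g x.1, M.act g x.2) ∈ P'.O → g ∈ φ.range
  cov : ∀ x ∈ P.O, P.f x = 0 → ∃ g, (Y.act g x.1, M.act g x.2) ∈ P'.O

variable {P : FP Y M W} {P' : FP (Y.res φ hφ) (M.res φ hφ) (W.res φ hφ)}

theorem act_act (g g' : Γ) (x : Y.Z × M.Z) :
    (Y.act g (Y.act g' x.1), M.act g (M.act g' x.2)) = (Y.act (g * g') x.1, M.act (g * g') x.2) := by
  rw [Y.mul, M.mul]

theorem act_one (x : Y.Z × M.Z) : (Y.act 1 x.1, M.act 1 x.2) = x := by rw [Y.one, M.one]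

theorem Ind.back (h : Ind P P') (k : Γ') (x : Y.Z × M.Z)
    (hx : (Y.act (φ k) x.1, M.act (φ k) x.2) ∈ P'.O) : x ∈ P'.O := by
  have := h.inv k⁻¹ _ hx
  rwa [act_act, ← map_mul, inv_mul_cancel, map_one, act_one] at this

theorem Ind.opn (h : Ind P P') (g : Γ) :
    IsOpen {x : Y.Z × M.Z | (Y.act g x.1, M.act g x.2) ∈ P'.O} :=
  h.op.preimage ((Y.cont.comp (continuous_const.prodMk continuous_fst)).prodMk
    (M.cont.comp (continuous_const.prodMk continuous_snd)))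

theorem Ind.cpt (h : Ind P P') {T : Set (Y.Z × M.Z)} (hT : IsCompact T)
    (c : ∀ x ∈ T, ∃ g, (Y.act g x.1, M.act g x.2) ∈ P'.O) : IsCompact {x ∈ T | x ∈ P'.O} := by
  have : {x ∈ T | x ∈ P'.O} = T ∩ (⋃ g, ⋃ _ : g ∉ φ.range,
      {x : Y.Z × M.Z | (Y.act g x.1, M.act g x.2) ∈ P'.O})ᶜ := by
    ext x
    simp only [mem_ofPred_eq, mem_inter_iff, mem_compl_iff, mem_iUnion, not_exists]
    refine and_congr_right fun hx => ⟨fun a g hg b => hg (h.dis g x a b), fun a => ?_⟩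
    obtain ⟨g, hg⟩ := c x hx
    obtain ⟨k, rfl⟩ : g ∈ φ.range := by_contra fun n => a g n hg
    exact h.back k x hg
  rw [this]
  exact hT.inter_right (isOpen_iUnion fun g => isOpen_iUnion fun _ => h.opn g).isClosed_compl

theorem Ind.ok (h : Ind P P') (hP : P.Ok) : P'.Ok where
  op := h.op
  inv := h.inv
  ct := (hP.ct.mono h.sub).congr h.eq
  eq k x hx := (h.eq _ (h.inv k x hx)).trans ((hP.eq (φ k) x (h.sub x hx)).trans
    (congrArg (W.ρ (φ k)) (h.eq x hx).symm))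
  cp := by
    have e : {x : Y.Z × M.Z | x ∈ P'.O ∧ P'.f x = 0} =
        {x ∈ {x ∈ P.O | P.f x = 0} | x ∈ P'.O} := Set.ext fun x =>
      ⟨fun ⟨a, b⟩ => ⟨⟨h.sub x a, (h.eq x a).symm.trans b⟩, a⟩,
        fun ⟨⟨_, b⟩, a⟩ => ⟨a, (h.eq x a).trans b⟩⟩
    exact (congrArg IsCompact e).mpr (h.cpt hP.cp fun x hx => h.cov x hx.1 hx.2)

variable {J α : Type} [Fintype J] [DecidableEq J] [Fintype α] {C : Cs φ J}
  {s : J → α → C(Y.Z, ℂ)}

theorem pull_cls {A B I : Type} [TopologicalSpace A] [TopologicalSpace B] [Fintype I] (r : C(A, B))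
    {e : Matrix I I C(B, ℂ)} (he : e * e = e) :
    pull r (K0.cls e) = K0.cls (e.map fun a => a.comp r) :=
  K0.mapRing_cls ((ContinuousMap.compRightAlgHom ℂ ℂ r : C(B, ℂ) →ₐ[ℂ] _) : C(B, ℂ) →+* C(A, ℂ)) he

theorem tau_res' (Z : GS Γ) (j : C(Z.Z, Y.Z)) (p : C(Z.Q, Y.Q)) (hp : ∀ z, p (Z.pr z) = Y.pr (j z))
    (hs : Sec Y C s) (hs' : Sec Z C fun i a => (s i a).comp j) (g : J → Matrix α α C(Y.Q, ℂ))
    (hg : ∀ j a b z, g j a b (Y.pr z) = conj (s j a z) * s j b z) (x : KX Z.Q) :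
    tau hφ hs' (pull (rq Z hφ) x) = pull p (∑ j, K0.cls (g j)) * x := by
  rw [tau_res hφ hs' (fun i => (g i).map fun a => a.comp p)
    (fun i a b z => (congrArg (g i a b) (hp z)).trans (hg i a b _)) x, map_sum]
  congr 1
  exact Finset.sum_congr rfl fun j _ => (pull_cls p (gram_idem hs g hg j)).symm

/-- **TRANSFER** -/
theorem Ind.trf (h : Ind P P') (hP : P.Ok) (hs : Sec Y C s) (g : J → Matrix α α C(Y.Q, ℂ))
    (hg : ∀ j a b z, g j a b (Y.pr z) = conj (s j a z) * s j b z)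
    (rM : C((Sb (Y.res φ hφ) (M.res φ hφ)).E, (Sb Y M).E))
    (hM : ∀ y w, rM (pt (Y.res φ hφ) (M.res φ hφ) y w) = pt Y M y w)
    (rW : C((Sb (Y.res φ hφ) (W.res φ hφ).ls).E, (Sb Y W.ls).E))
    (hW : ∀ y w, rW (pt (Y.res φ hφ) (W.res φ hφ).ls y w) = pt Y W.ls y w)
    {l : KS Y W.ls} (hl : (Sb Y W.ls).Rd l) {x : KS Y M} (hx : P'.pb (pull rW l) = pull rM x) :
    P.pb l = (Sb Y M).sm (∑ j, K0.cls (g j)) x := by
  classical
  let P1 : FP Y M W := ⟨{x | ∃ g, (Y.act g x.1, M.act g x.2) ∈ P'.O}, P.f⟩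
  have sub1 : P1.O ⊆ P.O := fun x ⟨g, hg⟩ => by
    have := hP.inv g⁻¹ _ (h.sub _ hg)
    rwa [act_act, inv_mul_cancel, act_one] at this
  have h1 : P1.Ok := hP.shrink (by simp only [P1, ofPred_exists]; exact isOpen_iUnion h.opn)
    (fun g x ⟨g', hg'⟩ => ⟨g' * g⁻¹, by rwa [act_act, inv_mul_cancel_right]⟩) sub1
    (fun _ _ => rfl) h.cov
  obtain ⟨χ, hχ⟩ := h1.exists_cut
  obtain ⟨F, hF, rF⟩ := hχ.rp h1
  have hS := h.cpt hχ.cp hχ.sub
  let χ' : Y.Z × M.Z → ℝ := (P'.O : Set (Y.Z × M.Z)).indicator χ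
  have c0 : ∀ x ∉ {x ∈ tsupport χ | x ∈ P'.O}, χ' x = 0 := fun x hx => by
    by_cases a : x ∈ P'.O
    · exact (indicator_of_mem a _).trans (image_eq_zero_of_notMem_tsupport fun b => hx ⟨b, a⟩)
    · exact indicator_of_notMem a _
  have c1 : tsupport χ' ⊆ {x ∈ tsupport χ | x ∈ P'.O} :=
    closure_minimal (fun x hx => by_contra fun n => hx (c0 x n)) hS.isClosed
  have hχ' : P'.Cut χ' :=
    { ct := continuous_of_tsupport fun x hx => hχ.ct.continuousAt.congr <| by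
        filter_upwards [h.op.mem_nhds (c1 hx).2] with y hy using (indicator_of_mem hy _).symm
      nn := fun x => indicator_nonneg (fun y _ => hχ.nn y) x
      cp := hS.of_isClosed_subset isClosed_closure c1
      sub := fun x hx => (c1 hx).2
      pos := fun x a b => ((hχ.pos x ⟨1, (act_one (Y := Y) (M := M) x).symm ▸ a⟩ ((h.eq x a).symm.trans b)).trans_eq
        (indicator_of_mem a _).symm)
      inv := fun k x => by
        by_cases a : x ∈ P'.O
        · exact (indicator_of_mem (h.inv k x a) _).trans ((hχ.inv (φ k) x).trans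
            (indicator_of_mem a _).symm)
        · exact (indicator_of_notMem (fun b => a (h.back k x b)) _).trans
            (indicator_of_notMem a _).symm }
  obtain ⟨F', hF', rF'⟩ := hχ'.rp (h.ok hP)
  have e1 : P.pb = pull F.f := ((rF.grow sub1 (fun _ _ => rfl) h.cov).ht_hm hP).pull_eq
  have e2 : P'.pb = pull F'.f := (rF'.ht_hm (h.ok hP)).pull_eq
  have hs' : Sec (Y.prod M.sph) C fun j a => (s j a).comp ContinuousMap.fst :=
    ⟨fun j a g z => hs.eq j a g z.1, fun j z => hs.un j z.1⟩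
  have em : IsOpenEmbedding (Prod.map id (↑) : Y.Z × M.Z → Y.Z × OnePoint M.Z) :=
    IsOpenEmbedding.id.prodMap isOpenEmbedding_coe
  have mem : ∀ {A : Set (Y.Z × M.Z)} (y : Y.Z) (w : M.Z), ((y, (w : OnePoint M.Z)) ∈
      Prod.map id (↑) '' A) ↔ (y, w) ∈ A := fun y w => em.injective.mem_set_image (a := (y, w))
  have z : pull ((Sb Y W.ls).s.comp (Sb Y M).p) l = 0 := by
    rw [pull_cm, show pull (Sb Y W.ls).s l = 0 from hl, map_zero]
  have key := tau_supp' hφ hs' F.f ((Sb Y W.ls).s.comp (Sb Y M).p) (rW.comp F'.f)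
    (em.isOpenMap _ h.op) (hS.image em.continuous) (image_mono fun x hx => hx.2)
    (by rintro k _ ⟨x, a, rfl⟩; exact ⟨_, h.inv k x a, rfl⟩)
    (by rintro g _ ⟨x, a, rfl⟩ b; exact h.dis g x a ((mem _ _).1 b))
    (by
      rintro _ ⟨⟨y, w⟩, a, rfl⟩
      refine (congrArg rW (hF' y w)).trans ((hW _ _).trans ((congrArg (pt Y W.ls y) ?_).trans
        (hF y w).symm))
      exact (FP.col_eq _ _).trans ((congrArg₂ (fun (c : ℝ) (v : W.W) => sc (c, (v : OnePoint W.W)))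
        (show χ' (y, w) = χ (y, w) from indicator_of_mem a _) (h.eq _ a)).trans
          (FP.col_eq (P := P1) χ (y, w)).symm))
    (by
      rintro ⟨y, w⟩ a
      induction w using OnePoint.rec with
      | infty => exact (congrArg rW (F'.f_inf y)).trans (hW _ _)
      | coe w =>
        refine (congrArg rW (hF' y w)).trans ((hW _ _).trans (congrArg (pt Y W.ls y) ?_))
        exact if_pos (indicator_of_notMem (fun b => a ((mem y w).2 b)) _))
    (by
      rintro ⟨y, w⟩ a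
      induction w using OnePoint.rec with
      | infty => exact F.f_inf y
      | coe w =>
        refine (hF y w).trans (congrArg (pt Y W.ls y) (if_pos (by_contra fun n => ?_)))
        obtain ⟨g, hg⟩ := hχ.mem n
        exact a g ((mem _ _).2 ⟨subset_closure fun e => n ((hχ.inv g (y, w)).symm.trans e), hg⟩)) l z
  have r : rM = rq (Y.prod M.sph) hφ := ContinuousMap.ext fun e => by
    obtain ⟨y, w, rfl⟩ := pt_surj e; exact hM y w
  have k2 : pull (rW.comp F'.f) l = pull rM x := by rw [pull_cm, ← e2, hx]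
  subst r
  have k3 := tau_res' (hφ := hφ) (Y.prod M.sph) ContinuousMap.fst (Sb Y M).p (fun _ => rfl) hs hs'
    g hg x
  rw [e1]
  exact key.symm.trans ((congrArg (tau hφ hs') k2).trans k3)

end Crest.Agent.N218.Tr
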