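import Crest.Agent.N218.Tr.Fp
import Crest.Agent.N218.K.Lam1
import Crest.Agent.N218.K.Cy

/-!
# Row 218, transfer (helper37): induced problems, transfer in terms of line bundles
-/

set_option autoImplicit false
set_option linter.unusedVariables false
set_option linter.unusedSectionVars false

open Crest.Agent.R204.K357 Matrix Crest.Agent.N218.K Set Topology OnePoint
open scoped ComplexConjugate

noncomputable section

namespace Crest.Agent.N218.Tr

variable {Γ Γ' : Type} [Group Γ] [TopologicalSpace Γ] [Group Γ'] [TopologicalSpace Γ']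
  {φ : Γ' →* Γ} {hφ : Continuous φ}

/-- inverse characters -/
def Cs.inv {J : Type} (C : Cs φ J) : Cs φ J :=
  ⟨C.t, C.ex, C.un, fun j => (C.χ j)⁻¹, fun j k => by rw [MonoidHom.inv_apply, C.tr, inv_one],
    fun i j h => C.inj (inv_injective h)⟩

/-- coset data for subgroups of finite groups with a faithful character -/
theorem exists_cs [Fintype Γ] [Fintype Γ'] {χ : Γ →* Circle} (hχ : Function.Injective χ)
    (hi : Function.Injective φ) {m : ℕ} (hm : Fintype.card Γ = Fintype.card Γ' * m) :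
    ∃ C : Cs φ (Fin m), ∀ j, C.χ j = χ ^ (Fintype.card Γ' * j) := by
  have cm : ∀ a b : Γ, a * b = b * a := fun a b => hχ (by rw [map_mul, map_mul, mul_comm])
  have h0 : Fintype.card Γ' ≠ 0 := Fintype.card_ne_zero
  have hc : Nat.card (Γ ⧸ φ.range) = m := by
    have := φ.range.card_eq_card_quotient_mul_card_subgroup
    rw [← Nat.card_congr (φ.ofInjective hi).toEquiv, Nat.card_eq_fintype_card (α := Γ),
      Nat.card_eq_fintype_card (α := Γ'), hm, mul_comm] at this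
    exact (Nat.eq_of_mul_eq_mul_right (Nat.pos_of_ne_zero h0) this).symm
  let e : (Γ ⧸ φ.range) ≃ Fin m := Finite.equivFinOfCardEq hc
  have : IsCyclic Γ := isCyclic_of_injective_ringHom (Circle.coeHom.comp χ)
    (Circle.coe_injective.comp hχ)
  obtain ⟨g0, hg0⟩ := IsCyclic.exists_ofOrder_eq_natCard (α := Γ)
  refine ⟨⟨fun i => (e.symm i).out, fun g => ?_, fun i j k H => ?_,
    fun j => χ ^ (Fintype.card Γ' * j), fun j k => ?_, fun i j H => ?_⟩, fun _ => rfl⟩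
  · obtain ⟨⟨_, k, rfl⟩, hk⟩ := QuotientGroup.mk_out_eq_mul φ.range g
    refine ⟨e g, k⁻¹, ?_⟩
    rw [e.symm_apply_apply, hk, cm g, map_inv, inv_mul_cancel_left]
  · refine e.symm.injective ?_
    rw [← (e.symm i).out_eq', ← (e.symm j).out_eq', H, cm]
    exact QuotientGroup.mk_mul_of_mem _ ⟨k, rfl⟩
  · rw [MonoidHom.pow_apply, ← map_pow, ← map_pow, pow_mul, pow_card_eq_one, one_pow, map_one,
      map_one]
  · have H1 := DFunLike.congr_fun H g0
    simp only [MonoidHom.pow_apply, ← map_pow] at H1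
    have H2 := pow_eq_pow_iff_modEq.1 (hχ H1)
    rw [hg0, Nat.card_eq_fintype_card, hm] at H2
    have := Nat.ModEq.mul_left_cancel' h0 H2
    rw [Nat.ModEq, Nat.mod_eq_of_lt i.2, Nat.mod_eq_of_lt j.2] at this
    exact Fin.ext this

/-- sections with a common index set -/
def pad {Y : GS Γ} {J : Type} [Fintype J] [DecidableEq J] {χ : J → Γ →* Circle}
    (S : ∀ j, K.Sec Y (χ j)) (j : J) : K.Sec Y (χ j) where
  ι := Σ i, (S i).ι
  s := ⟨fun y x => if x.1 = j then (S x.1).s y x.2 else 0, continuous_pi fun x => by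
    split_ifs
    · fun_prop
    · exact continuous_const⟩
  un y := by
    have := (S j).un y
    simp only [Un1, ContinuousMap.coe_mk, Fintype.sum_sigma] at this ⊢
    rw [Finset.sum_eq_single j (fun i _ h => by simp [h]) (by simp)]
    simpa using this
  eq g y x := by
    obtain ⟨i, a⟩ := x
    by_cases h : i = j
    · subst h; simp [(S i).eq]
    · simp [h]

/-- **TRANSFER**, with line bundles -/
theorem Ind.trf' [CompactSpace Γ] [CompactSpace Γ'] {Y : GS Γ} {M : LS Γ} {W : Rep Γ}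
    {P : FP Y M W} {P' : FP (Y.res φ hφ) (M.res φ hφ) (W.res φ hφ)} {J : Type} [Fintype J]
    (h : Ind P P') (hP : P.Ok) (C : Cs φ J) (hS : ∀ j, Nonempty (K.Sec Y (C.χ j)))
    (rM : C((Sb (Y.res φ hφ) (M.res φ hφ)).E, (Sb Y M).E))
    (hM : ∀ y w, rM (pt (Y.res φ hφ) (M.res φ hφ) y w) = pt Y M y w)
    (rW : C((Sb (Y.res φ hφ) (W.res φ hφ).ls).E, (Sb Y W.ls).E))
    (hW : ∀ y w, rW (pt (Y.res φ hφ) (W.res φ hφ).ls y w) = pt Y W.ls y w)
    {l : KS Y W.ls} (hl : (Sb Y W.ls).Rd l) {x : KS Y M} (hx : P'.pb (pull rW l) = pull rM x) :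
    P.pb l = (Sb Y M).sm (∑ j, Lc Y (C.χ j)) x := by
  classical
  let T := pad fun j => (hS j).some
  have hs : Sec Y C.inv fun j (a : Σ i, (hS i).some.ι) =>
      ⟨fun y => (T j).inv.s y a, by fun_prop⟩ :=
    ⟨fun j a g z => (T j).inv.eq g z a, fun j z => (T j).inv.un z⟩
  rw [h.trf hP hs (fun j => (T j).out (T j)) (fun j a b z => by
    change _ = conj (conj _) * _
    rw [Complex.conj_conj]; rfl) rM hM rW hW hl hx]
  congr 1
  exact Finset.sum_congr rfl fun j _ => (Lc_eq (T j)).symm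

/-! ## induced functions and problems -/

variable {X : LS Γ} {V W : Rep Γ}

open Classical in
/-- the induced function -/
def ind (X : LS Γ) (W : Rep Γ) (O : Set X.Z) (f : X.Z → W.W) (x : X.Z) : W.W :=
  if h : ∃ g, X.act g x ∈ O then W.ρ h.choose⁻¹ (f (X.act h.choose x)) else 0

/-- disjoint translates -/
def Dj (φ : Γ' →* Γ) (X : LS Γ) (O : Set X.Z) : Prop :=
  ∀ g, ∀ x ∈ O, X.act g x ∈ O → g ∈ φ.range

theorem rho_mul (g g' : Γ) (w : W.W) : W.ρ (g * g') w = W.ρ g (W.ρ g' w) := by rw [map_mul]; rfl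

theorem rho_zero {g : Γ} {w : W.W} (h : W.ρ g w = 0) : w = 0 := by
  rw [← W.inv_apply g w, h, map_zero]

section
variable {O : Set X.Z} {f : X.Z → W.W} (d : Dj φ X O)
  (e : ∀ k, ∀ x ∈ O, f (X.act (φ k) x) = W.ρ (φ k) (f x))
include d e

theorem ind_eq {g : Γ} {x : X.Z} (h : X.act g x ∈ O) : ind X W O f x = W.ρ g⁻¹ (f (X.act g x)) := by
  have h' : ∃ g, X.act g x ∈ O := ⟨g, h⟩
  rw [ind, dif_pos h']
  obtain ⟨k, hk⟩ := d (g * h'.choose⁻¹) _ h'.choose_spec (by rwa [X.mul, X.inv_act])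
  have := e k _ h'.choose_spec
  rw [hk, X.mul, X.inv_act] at this
  rw [this, ← rho_mul, inv_mul_cancel_left]

theorem ind_one {x : X.Z} (h : x ∈ O) : ind X W O f x = f x := by
  rw [ind_eq d e (g := 1) (by rwa [X.one]), X.one, inv_one, map_one]; rfl

theorem ind_act (g : Γ) {x : X.Z} (h : ∃ g, X.act g x ∈ O) :
    ind X W O f (X.act g x) = W.ρ g (ind X W O f x) := by
  obtain ⟨g', h⟩ := h
  have a : X.act (g' * g⁻¹) (X.act g x) = X.act g' x := by rw [X.mul, X.inv_act]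
  rw [ind_eq d e h, ind_eq d e (g := g' * g⁻¹) (by rwa [a]), a, ← rho_mul, _root_.mul_inv_rev,
    inv_inv]

theorem ind_ct (op : IsOpen O) (ct : ContinuousOn f O) :
    ContinuousOn (ind X W O f) {x | ∃ g, X.act g x ∈ O} := fun x ⟨g, h⟩ => by
  refine (((W.ρ g⁻¹).continuous.continuousAt.comp ((ct.continuousAt (op.mem_nhds h)).comp
    (X.cont_act g).continuousAt)).congr ?_).continuousWithinAt
  filter_upwards [(op.preimage (X.cont_act g)).mem_nhds h] with y hy using (ind_eq d e hy).symm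
end

/-- the induced problem -/
def indP (Q : PB (X.res φ hφ) (V.res φ hφ)) : PB X V := ⟨{x | ∃ g, X.act g x ∈ Q.O}, ind X V Q.O Q.f⟩

variable {Q Q' : PB (X.res φ hφ) (V.res φ hφ)} {S' : Set X.Z}

theorem ind_z (d : Dj φ X Q.O) (h : Q.Ok S') {g : Γ} {x : X.Z} (a : X.act g x ∈ Q.O) :
    x ∈ (indP Q).Z ↔ X.act g x ∈ Q.Z :=
  ⟨fun b => ⟨a, rho_zero (W := V) ((ind_eq d h.eq a).symm.trans b.2)⟩, fun b => ⟨⟨g, a⟩,
    (ind_eq d h.eq a).trans ((congrArg (V.ρ g⁻¹) b.2).trans (map_zero _))⟩⟩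

theorem ind_ok [Finite Γ] (d : Dj φ X Q.O) (h : Q.Ok S') {S : Set X.Z}
    (fr : ∀ g x, X.act g x ∈ Q.Z → x ∈ S) : (indP Q).Ok S where
  op := by
    simp only [indP, ofPred_exists]
    exact isOpen_iUnion fun g => h.op.preimage (X.cont_act g)
  inv g x := fun ⟨g', a⟩ => ⟨g' * g⁻¹, by rwa [X.mul, X.inv_act]⟩
  ct := ind_ct d h.eq h.op h.ct
  eq g x a := ind_act d h.eq g a
  cp := by
    have : (indP Q).Z = ⋃ g, X.act g⁻¹ '' Q.Z := Set.ext fun x => by
      rw [mem_iUnion]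
      refine ⟨fun b => ?_, ?_⟩
      · obtain ⟨g, a⟩ := b.1
        exact ⟨g, _, (ind_z d h a).1 b, X.inv_act g x⟩
      · rintro ⟨g, y, b, rfl⟩
        have a : X.act g (X.act g⁻¹ y) = y := X.act_inv g y
        exact (ind_z d h (g := g) (a.symm ▸ b.1)).2 (a.symm ▸ b)
    rw [this]
    exact isCompact_iUnion fun g => h.cp.image (X.cont_act _)
  fr x b := by
    obtain ⟨g, a⟩ := b.1
    exact fr g x ((ind_z d h a).1 b)

theorem Dj.fr (d : Dj φ X Q.O) {x : X.Z} (a : x ∈ Q.O) (b : x ∈ (X.res φ hφ).fr) (g : Γ) {y : X.Z}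
    (e : X.act g y = x) : y ∈ X.fr := by
  have : x ∈ X.fr := fun g' h' => by
    obtain ⟨k, rfl⟩ := d g' x a (h'.symm ▸ a)
    rw [b k h', map_one]
  rw [← X.inv_act g y, e]; exact X.fr_act _ this

theorem ind_le (d : Dj φ X Q'.O) (h : Q.Ok S') {S'' : Set X.Z} (h' : Q'.Ok S'') (l : Q.Le Q') :
    (indP Q).Le (indP Q') where
  sub x := fun ⟨g, a⟩ => ⟨g, l.sub a⟩
  eq x := fun ⟨g, a⟩ => (ind_eq (fun g x a b => d g x (l.sub a) (l.sub b)) h.eq a).trans
    ((congrArg (V.ρ g⁻¹) (l.eq _ a)).trans (ind_eq d h'.eq (l.sub a)).symm)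
  z x b := by
    obtain ⟨g, a⟩ := b.1
    exact ⟨g, l.z ((ind_z d h' a).1 b)⟩

theorem ind_le' {P : PB X V} {S : Set X.Z} (hP : P.Ok S) (d : Dj φ X Q.O) (h : Q.Ok S')
    (sub : ∀ x : X.Z, x ∈ Q.O → x ∈ P.O ∧ Q.f x = P.f x) (cov : ∀ x ∈ P.Z, ∃ g, X.act g x ∈ Q.O) :
    (indP Q).Le P := by
  have s : ∀ g x, X.act g x ∈ Q.O → x ∈ P.O := fun g x a => by
    have := hP.inv g⁻¹ _ (sub _ a).1
    rwa [X.inv_act] at this
  exact ⟨fun x ⟨g, a⟩ => s g x a, fun x ⟨g, a⟩ => (ind_eq d h.eq a).trans ((congrArg (V.ρ g⁻¹)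
    ((sub _ a).2.trans (hP.eq g x (s g x a)))).trans (V.inv_apply g _)), cov⟩

theorem ind_lift (d : Dj φ X Q.O) (h : Q.Ok S') {k : X.Z → W.W} (l : Q.Lift (W.res φ hφ) k) :
    (indP Q).Lift W (ind X W Q.O k) where
  ct := ind_ct d l.eq h.op l.ct
  eq g x a := ind_act d l.eq g a
  nz x b := fun c => by
    obtain ⟨g, a⟩ := b.1
    exact l.nz _ ((ind_z d h a).1 b) (rho_zero ((ind_eq d l.eq a).symm.trans c))

end Crest.Agent.N218.Tr
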